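import Vale.Agent.P226.Final
import Vale.Agent.P226.NumEnd
import Vale.Agent.P226.Caps

/-!
# P226 : the Gaussian propeller conjecture (Khot-Naor), all dimensions, all numbers of cells
-/

open MeasureTheory ProbabilityTheory

namespace Vale.Agent.Results.P226.Propeller

/-- For every `d` and `k` and every family of `k` measurable subsets of `ℝ^d` that are pairwise
disjoint up to null sets (in particular every measurable partition),
`∑_i |∫_{A_i} x dγ_d(x)|² ≤ 9/(8π)`. -/
theorem result (d k : ℕ) (A : Fin k → Set (EuclideanSpace ℝ (Fin d)))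
    (hmeas : ∀ i, MeasurableSet (A i))
    (hdisj : ∀ i j, i ≠ j → stdGaussian (EuclideanSpace ℝ (Fin d)) (A i ∩ A j) = 0) :
    ∑ i, ‖∫ x in A i, x ∂(stdGaussian (EuclideanSpace ℝ (Fin d)))‖ ^ 2 ≤ 9 / (8 * Real.pi) :=
  P226.propeller_of (fun A hA t => P226.cap_I A hA t)
    (fun {_} hn W hW A hA h1 h2 {_} h3 h4 => P226.cap_n hn W hW A hA h1 h2 h3 h4)
    (fun _ _ _ h => h.false) A hmeas hdisj

end Vale.Agent.Results.P226.Propeller
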