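import Vale.Agent.P226.Final
import Vale.Agent.P226.NumEnd
import Vale.Agent.P226.Caps
import Vale.Agent.P226.Sharp

/-!
# P226 : `M(d,k) = 9/(8π)` for all `d ≥ 2`, `k ≥ 3`
-/

open MeasureTheory ProbabilityTheory

namespace Vale.Agent.Results.P226.PropellerSharp

/-- For all `d ≥ 2` and `k ≥ 3` the number `9/(8π)` is the greatest value of
`∑_i |∫_{A_i} x dγ_d(x)|²` over all measurable partitions of `ℝ^d` into `k` cells. -/
theorem result (d k : ℕ) (hd : 2 ≤ d) (hk : 3 ≤ k) :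
    IsGreatest {F : ℝ | ∃ A : Fin k → Set (EuclideanSpace ℝ (Fin d)),
      (∀ i, MeasurableSet (A i)) ∧ (Pairwise fun i j => Disjoint (A i) (A j)) ∧
      (⋃ i, A i) = Set.univ ∧
      F = ∑ i, ‖∫ x in A i, x ∂(stdGaussian (EuclideanSpace ℝ (Fin d)))‖ ^ 2}
      (9 / (8 * Real.pi)) := by
  have ub : ∀ A : Fin k → Set (EuclideanSpace ℝ (Fin d)), (∀ i, MeasurableSet (A i)) →
      (Pairwise fun i j => Disjoint (A i) (A j)) →
      ∑ i, ‖∫ x in A i, x ∂(stdGaussian (EuclideanSpace ℝ (Fin d)))‖ ^ 2 ≤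
        9 / (8 * Real.pi) := by
    intro A hm hdisj
    refine P226.propeller_of (fun A hA t => P226.cap_I A hA t)
      (fun {_} hn W hW A hA h1 h2 {_} h3 h4 => P226.cap_n hn W hW A hA h1 h2 h3 h4)
      (fun _ _ _ h => h.false) A hm ?_
    intro i j hij
    rw [Set.disjoint_iff_inter_eq_empty.mp (hdisj hij), measure_empty]
  constructor
  · obtain ⟨A, hA, hF⟩ := P226.exists_propeller hd hk
    exact ⟨A, hA.meas, hA.disj, hA.cover, le_antisymm hF (ub A hA.meas hA.disj)⟩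
  · rintro F ⟨A, hm, hdisj, -, rfl⟩
    exact ub A hm hdisj

end Vale.Agent.Results.P226.PropellerSharp
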